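import Vale.Agent.P141.Main
import Vale.Agent.P141.Seed
import Vale.Agent.P141.Range

open MeasureTheory
open scoped ENNReal NNReal

namespace Vale.Agent.Results.P141.UnboundedRange

/-- The trilinear Hilbert transform is unbounded at every Hölder tuple with `r ≤ 47/100`, and for
every `r < 1/2` at every Hölder tuple having an exponent close enough to `1`. -/
theorem result :
    (∀ (p₁ p₂ p₃ : ℝ≥0∞) (r : ℝ), 1 < p₁ → 1 < p₂ → 1 < p₃ → 0 < r → r ≤ 47 / 100 →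
      1 / ENNReal.ofReal r = 1 / p₁ + 1 / p₂ + 1 / p₃ →
      ¬ ∃ C : ℝ≥0, ∀ f₁ f₂ f₃ : SchwartzMap ℝ ℂ,
        eLpNorm (Vale.Agent.P141.THT f₁ f₂ f₃) (ENNReal.ofReal r) volume ≤
          C * eLpNorm f₁ p₁ volume * eLpNorm f₂ p₂ volume * eLpNorm f₃ p₃ volume) ∧
    (∀ r : ℝ, 0 < r → r < 1 / 2 → ∃ eta : ℝ, 0 < eta ∧
      ∀ p₁ p₂ p₃ : ℝ≥0∞, 1 < p₁ → 1 < p₂ → 1 < p₃ →
        1 / ENNReal.ofReal r = 1 / p₁ + 1 / p₂ + 1 / p₃ →
        min p₁ (min p₂ p₃) < 1 + ENNReal.ofReal eta →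
        ¬ ∃ C : ℝ≥0, ∀ f₁ f₂ f₃ : SchwartzMap ℝ ℂ,
          eLpNorm (Vale.Agent.P141.THT f₁ f₂ f₃) (ENNReal.ofReal r) volume ≤
            C * eLpNorm f₁ p₁ volume * eLpNorm f₂ p₂ volume * eLpNorm f₃ p₃ volume) :=
  ⟨fun p₁ p₂ p₃ r hp₁ hp₂ hp₃ hr0 hr hH =>
      Vale.Agent.P141.unbounded_of_seed (by norm_num) Vale.Agent.P141.seed_bounds
        Vale.Agent.P141.seed_first Vale.Agent.P141.seed_second p₁ p₂ p₃ r hp₁ hp₂ hp₃ hr0 hr hH,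
    Vale.Agent.P141.unbounded_near_one⟩

end Vale.Agent.Results.P141.UnboundedRange
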